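import Vale.Agent.P181.H869.TallAll
import Vale.Agent.P181.H385.Lhs3
import Vale.Agent.P181.H248.RhsMul
import Vale.Agent.P181.H23.InvE
import Vale.Agent.P181.H662.InvOF

set_option autoImplicit false

/-!
# P181, tall shapes for all `b ≥ 6a`, unconditionally
-/

namespace Vale.Agent.P181.H869

open Vale.Agent.P181 Vale.Agent.P181.H385

/-- **P181, tall shapes for all `b ≥ 6a`**: no hypothesis is left. -/
theorem tallAll : TallAll :=
  tallAll_of H385.lhsStep H248.rhsMul H23.invE H662.invO

end Vale.Agent.P181.H869
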