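import Vale.Agent.P181.H385.Defs
import Vale.Agent.P181.H530.Pad
import Vale.Agent.P181.H530.Zero

set_option autoImplicit false

/-!
# P181, tall shapes for all `b ≥ 6a`: the assembly

The reduction `F(a,b-c,lam-c) ⟹ F(a,b,lam)` is iterated, the residue of `b` modulo `a` is removed by
an invariant of degree `c`, and the remaining case `F(a,qa,lam-c)` is `H280.plethMult_le`.
-/

namespace Vale.Agent.P181.H869

open Vale.Agent.P181 Vale.Agent.P181.H280 Vale.Agent.P181.H385

/-- `K` steps of `LhsStep`. -/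
lemma lhs_iter (hL : LhsStep) {a : ℕ} (b : ℕ) (ha : 1 ≤ a) : ∀ (K : ℕ) (lam : Fin a → ℕ),
    (∀ i, 2 * K ≤ lam i) →
    plethMult a (b + 2 * K) a lam ≤ plethMult a b a (fun i => lam i - 2 * K) := by
  intro K
  induction K with
  | zero =>
    intro lam _
    exact le_of_eq (by simp)
  | succ K ih =>
    intro lam hlam
    have h1 : b + 2 * (K + 1) = (b + 2 * K) + 2 := by ring
    rw [h1]
    refine (hL a (b + 2 * K) lam ha (fun i => ?_)).trans ?_
    · have := hlam i
      omega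
    · refine (ih (fun i => lam i - 2) (fun i => ?_)).trans (le_of_eq ?_)
      · have := hlam i
        show 2 * K ≤ lam i - 2
        omega
      · have h2 : (fun i => lam i - 2 - 2 * K) = (fun i => lam i - 2 * (K + 1)) := by
          funext i
          omega
        show plethMult a b a (fun i => lam i - 2 - 2 * K) = _
        rw [h2]

/-- The reduction: an invariant of degree `2K` gives `F(a,b,lam-2K) ⟹ F(a,b+2K,lam)`. -/
lemma reduce (hL : LhsStep) (hR : RhsMul) {a b K : ℕ} (ha : 1 ≤ a)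
    (hinv : 1 ≤ plethMult (2 * K) a a (fun _ => 2 * K)) {lam : Fin a → ℕ}
    (hlam : ∀ i, 2 * K ≤ lam i)
    (hF : plethMult a b a (fun i => lam i - 2 * K) ≤ plethMult b a a (fun i => lam i - 2 * K)) :
    plethMult a (b + 2 * K) a lam ≤ plethMult (b + 2 * K) a a lam := by
  refine (lhs_iter hL b ha K lam hlam).trans (hF.trans ?_)
  refine (hR a a b (2 * K) (fun i => lam i - 2 * K) (fun _ => 2 * K) hinv).trans (le_of_eq ?_)
  have h2 : (fun i => lam i - 2 * K + 2 * K) = lam := by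
    funext i
    have := hlam i
    omega
  show plethMult (b + 2 * K) a a (fun i => lam i - 2 * K + 2 * K) = _
  rw [h2]

/-- The multiples of `a`. -/
lemma mult_case {a q : ℕ} (ha : 2 ≤ a) (hq : 1 ≤ q) (lam : Fin a → ℕ)
    (hlam : ∀ i, 2 * q ≤ lam i + 3) :
    plethMult a (q * a) a lam ≤ plethMult (q * a) a a lam := by
  rcases Nat.lt_or_ge q 2 with h | h
  · have h1 : q = 1 := by omega
    subst h1
    rw [one_mul]
  · exact plethMult_le ha h le_rfl lam (fun i _ => hlam i)

/-- The numbers: the degree `2K` of the invariant and the multiple `q`. -/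
lemma numbers {a b : ℕ} (ha : 2 ≤ a) (hb : 6 * a ≤ b) (h : Odd a ∨ Even b) :
    ∃ q K : ℕ, b = q * a + 2 * K ∧ 1 ≤ q ∧ q ≤ b / a ∧ 2 * K ≤ 5 * a ∧
      ((Even a ∧ a ≤ 2 * K) ∨ (Odd a ∧ Even K ∧ a < 2 * K)) := by
  have h0 : a * (b / a) + b % a = b := Nat.div_add_mod b a
  have h1 : b % a < a := Nat.mod_lt _ (by omega)
  have h2 : 6 ≤ b / a := (Nat.le_div_iff_mul_le (by omega)).2 hb
  set t := b / a with ht
  set r := b % a with hr
  clear_value t r
  rcases Nat.even_or_odd a with he | ho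
  · have hbe : Even b := h.resolve_left (by rw [Nat.not_odd_iff_even]; exact he)
    obtain ⟨h', rfl⟩ := he
    obtain ⟨b', rfl⟩ := hbe
    obtain ⟨s, rfl⟩ : ∃ s, t = s + 1 := ⟨t - 1, by omega⟩
    have h3 : Even r := by
      have h4 : Even ((h' + h') * (s + 1) + r) := by rw [h0]; exact ⟨b', rfl⟩
      rw [Nat.even_add] at h4
      exact h4.1 (Even.mul_right ⟨h', rfl⟩ _)
    obtain ⟨r', rfl⟩ := h3
    refine ⟨s, h' + r', ?_, by omega, by omega, by omega, Or.inl ⟨⟨h', rfl⟩, by omega⟩⟩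
    rw [← h0]
    ring
  · obtain ⟨h', rfl⟩ := ho
    -- the multiple `i` of `a`, `1 ≤ i ≤ 4`, with `4 ∣ r + i a`
    obtain ⟨i, hi1, hi4, hdvd⟩ : ∃ i : ℕ, 1 ≤ i ∧ i ≤ 4 ∧ (r + i * (2 * h' + 1)) % 4 = 0 := by
      have c1 : h' % 2 = 0 ∨ h' % 2 = 1 := by omega
      have c2 : r % 4 = 0 ∨ r % 4 = 1 ∨ r % 4 = 2 ∨ r % 4 = 3 := by omega
      rcases c1 with c1 | c1 <;> rcases c2 with c2 | c2 | c2 | c2
      · exact ⟨4, by omega, by omega, by omega⟩
      · exact ⟨3, by omega, by omega, by omega⟩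
      · exact ⟨2, by omega, by omega, by omega⟩
      · exact ⟨1, by omega, by omega, by omega⟩
      · exact ⟨4, by omega, by omega, by omega⟩
      · exact ⟨1, by omega, by omega, by omega⟩
      · exact ⟨2, by omega, by omega, by omega⟩
      · exact ⟨3, by omega, by omega, by omega⟩
    obtain ⟨j, hj⟩ : ∃ j, r + i * (2 * h' + 1) = 4 * j := ⟨(r + i * (2 * h' + 1)) / 4, by omega⟩
    obtain ⟨s, rfl⟩ : ∃ s, t = s + i := ⟨t - i, by omega⟩
    have hb' : b = s * (2 * h' + 1) + 2 * (2 * j) := by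
      rw [← h0]
      have e : (2 * h' + 1) * (s + i) + r = s * (2 * h' + 1) + (r + i * (2 * h' + 1)) := by ring
      rw [e, hj]
      ring
    have hle : i * (2 * h' + 1) ≤ 4 * (2 * h' + 1) := Nat.mul_le_mul_right _ hi4
    have hge : 1 * (2 * h' + 1) ≤ i * (2 * h' + 1) := Nat.mul_le_mul_right _ hi1
    refine ⟨s, 2 * j, hb', by omega, by omega, by omega, Or.inr ⟨⟨h', rfl⟩, ⟨j, by ring⟩, ?_⟩⟩
    omega

/-- The case of `a` rows. -/
lemma tall_a (hL : LhsStep) (hR : RhsMul) (hE : InvE) (hO : InvO) {a b : ℕ} (ha : 2 ≤ a)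
    (hb : 6 * a ≤ b) (h : Odd a ∨ Even b) (lam : Fin a → ℕ)
    (hlam : ∀ i, 5 * a + 2 * (b / a) ≤ lam i) :
    plethMult a b a lam ≤ plethMult b a a lam := by
  obtain ⟨q, K, hbq, hq1, hqt, hK, hc⟩ := numbers ha hb h
  have hinv : 1 ≤ plethMult (2 * K) a a (fun _ => 2 * K) := by
    rcases hc with ⟨he, hle⟩ | ⟨ho, hKe, hlt⟩
    · obtain ⟨h', rfl⟩ := he
      have := hE h' K (by omega) (by omega)
      rwa [two_mul h'] at this
    · obtain ⟨h', rfl⟩ := ho
      exact hO h' K (by omega) (by omega) hKe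
  have h1 : plethMult a (q * a + 2 * K) a lam ≤ plethMult (q * a + 2 * K) a a lam := by
    refine reduce hL hR (by omega) hinv (fun i => ?_) ?_
    · have := hlam i
      omega
    · refine mult_case ha hq1 _ (fun i => ?_)
      have := hlam i
      show 2 * q ≤ lam i - 2 * K + 3
      omega
  rwa [← hbq] at h1

/-- **P181, tall shapes for all `b ≥ 6a`.** -/
theorem tallAll_of (hL : LhsStep) (hR : RhsMul) (hE : InvE) (hO : InvO) : TallAll := by
  intro a b n ha han hb h lam hlam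
  by_cases h0 : plethMult a b n lam = 0
  · rw [h0]
    exact Nat.zero_le _
  · obtain ⟨_, _, hz⟩ := H530.zero_stmt a b n lam h0
    obtain ⟨k, rfl⟩ := Nat.exists_eq_add_of_le han
    have hext : (fun i : Fin (a + k) => if h : (i : ℕ) < a then
        (fun j : Fin a => lam (Fin.castAdd k j)) ⟨i, h⟩ else 0) = lam := by
      funext i
      by_cases hi : (i : ℕ) < a
      · rw [dif_pos hi]
        rfl
      · rw [dif_neg hi, hz i (by omega)]
    have h1 := H530.pad_stmt a b a k (fun j : Fin a => lam (Fin.castAdd k j))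
    have h2 := H530.pad_stmt b a a k (fun j : Fin a => lam (Fin.castAdd k j))
    rw [hext] at h1 h2
    rw [h1, h2]
    exact tall_a hL hR hE hO ha hb h _ (fun i => hlam (Fin.castAdd k i) i.2)

end Vale.Agent.P181.H869
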