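import Vale.Agent.P181.H983.Pos

set_option autoImplicit false

/-!
# P181: the particle `l^a` is dissolved (S5)
-/

namespace Vale.Agent.P181.H869

open Vale.Agent.P181 Vale.Agent.P181.H280 Vale.Agent.P181.H270 Vale.Agent.P181.H73
  Vale.Agent.P181.H983 Finset MvPolynomial

section Split

/-- The places: the first column and the others. -/
def pl (k : ℕ) (B : Type) : Fin (k + 1) ⊕ B ≃ Option (Fin k ⊕ B) where
  toFun := Sum.elim (Fin.cases none fun i => some (Sum.inl i)) fun b => some (Sum.inr b)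
  invFun := fun o => o.elim (Sum.inl 0) (Sum.elim (fun i => Sum.inl i.succ) Sum.inr)
  left_inv := by
    rintro (i | b)
    · exact Fin.cases rfl (fun i => rfl) i
    · rfl
  right_inv := by
    rintro (_ | (i | b)) <;> rfl

variable {k : ℕ} {B : Type}

/-- The other particles. -/
def jp (r : Fin k ⊕ B) : Fin (k + 1) ⊕ B := (pl k B).symm (some r)

/-- Extension of a placement by the identity on the first column. -/
def ext (e : Equiv.Perm (Fin k ⊕ B)) : Equiv.Perm (Fin (k + 1) ⊕ B) :=
  (pl k B).symm.permCongr (Equiv.optionCongr e)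

lemma sum_split [Fintype B] [DecidableEq B] (f : Equiv.Perm (Fin (k + 1) ⊕ B) → ℂ) :
    ∑ E, f E = ∑ o : Option (Fin k ⊕ B), ∑ e,
      f (ext e * Equiv.swap (Sum.inl 0) ((pl k B).symm o)) := by
  rw [← Equiv.sum_comp (pl k B).symm.permCongr,
    ← Equiv.sum_comp (Equiv.inv (Equiv.Perm (Option (Fin k ⊕ B)))),
    ← Equiv.sum_comp Equiv.Perm.decomposeOption.symm, Fintype.sum_prod_type]
  apply Finset.sum_congr rfl
  intro o _
  rw [← Equiv.sum_comp (Equiv.inv (Equiv.Perm (Fin k ⊕ B)))]
  apply Finset.sum_congr rfl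
  intro e _
  congr 1
  rw [Equiv.Perm.decomposeOption_symm_apply, Equiv.inv_apply, Equiv.inv_apply, mul_inv_rev,
    Equiv.swap_inv]
  refine Equiv.ext fun x => ?_
  have h1 : (pl k B) (Equiv.swap (Sum.inl 0) ((pl k B).symm o) x) =
      Equiv.swap none o ((pl k B) x) := by
    have h2 := (pl k B).injective.map_swap (Sum.inl 0) ((pl k B).symm o) x
    rw [Equiv.apply_symm_apply] at h2
    exact h2
  change (pl k B).symm (Equiv.optionCongr e (Equiv.swap none o ((pl k B) x))) =
    (pl k B).symm (Equiv.optionCongr e ((pl k B) (Equiv.swap (Sum.inl 0) ((pl k B).symm o) x)))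
  rw [h1]

end Split

section Slots

variable {a k q : ℕ}

lemma slot_swap (E : Equiv.Perm (Fin k ⊕ (Fin a × Fin q))) (σ : Fin k → Equiv.Perm (Fin a))
    (i j : Fin k) : slot (E * Equiv.swap (Sum.inl i) (Sum.inl j))
      (fun c => σ (Equiv.swap i j c)) = slot E σ := by
  funext pos
  have h : (E * Equiv.swap (Sum.inl i) (Sum.inl j)).symm pos.1 =
      Equiv.swap (Sum.inl i) (Sum.inl j) (E.symm pos.1) := rfl
  simp only [slot]
  rw [h]
  rcases E.symm pos.1 with c | b
  · rw [← (Sum.inl_injective (β := Fin a × Fin q)).map_swap, Sum.elim_inl, Sum.elim_inl]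
    have h1 : Equiv.swap i j (Equiv.swap i j c) = c := (Equiv.swap i j).symm_apply_apply c
    rw [h1]
  · rw [Equiv.swap_apply_of_ne_of_ne (by simp) (by simp)]
    rfl

lemma sum_slot_swap (E : Equiv.Perm (Fin k ⊕ (Fin a × Fin q))) (i j : Fin k)
    (H : ((Fin k ⊕ (Fin a × Fin q)) × Fin a → Fin a) → ℂ) :
    ∑ σ, H (slot (E * Equiv.swap (Sum.inl i) (Sum.inl j)) σ) = ∑ σ, H (slot E σ) := by
  rw [← Equiv.sum_comp (Equiv.arrowCongr (Equiv.swap i j) (Equiv.refl (Equiv.Perm (Fin a))))]
  apply Finset.sum_congr rfl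
  intro σ _
  congr 1
  exact slot_swap E σ i j

variable {A : Type} [CommRing A] {B : Type} [Fintype B]

lemma cont_split (s : (Fin (k + 1) ⊕ B) × Fin a → Fin a)
    (y : (Fin (k + 1) ⊕ B) × Fin a → A) (p : Fin a) :
    cont s y p = (∏ t, if s (Sum.inl 0, t) = p then y (Sum.inl 0, t) else 1) *
      cont (fun pos : (Fin k ⊕ B) × Fin a => s (jp pos.1, pos.2))
        (fun pos => y (jp pos.1, pos.2)) p := by
  rw [cont, cont, Fintype.prod_prod_type, ← Equiv.prod_comp (pl k B).symm, Fintype.prod_option,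
    Fintype.prod_prod_type]
  rfl

lemma slot_ext_zero (e : Equiv.Perm (Fin k ⊕ (Fin a × Fin q)))
    (σ : Fin (k + 1) → Equiv.Perm (Fin a)) (t : Fin a) :
    slot (ext e) σ (Sum.inl 0, t) = (σ 0).symm t := rfl

lemma slot_ext (e : Equiv.Perm (Fin k ⊕ (Fin a × Fin q)))
    (σ : Fin (k + 1) → Equiv.Perm (Fin a)) (r : Fin k ⊕ (Fin a × Fin q)) (t : Fin a) :
    slot (ext e) σ (jp r, t) = slot e (fun i => σ i.succ) (r, t) := by
  have h : (ext e).symm (jp r) = jp (e.symm r) := by
    rcases r with i | b <;> rfl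
  simp only [slot]
  rw [h]
  rcases e.symm r with i | b <;> rfl

lemma card_fib {κ : Type} [Fintype κ] (s : κ → Fin a) (p : Fin a) :
    cont s (fun _ => (2 : ℂ)) p = 2 ^ (univ.filter (fun pos => s pos = p)).card := by
  rw [cont, ← Finset.prod_filter, Finset.prod_const]

lemma card_lt (E : Equiv.Perm (Fin (k + 1) ⊕ (Fin a × Fin (q + 1))))
    (σ : Fin (k + 1) → Equiv.Perm (Fin a)) (b : Fin a × Fin (q + 1))
    (hE : E.symm (Sum.inl 0) = Sum.inr b) :
    (univ.filter (fun pos : (Fin k ⊕ (Fin a × Fin (q + 1))) × Fin a =>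
      slot E σ (jp pos.1, pos.2) = b.1)).card = q * a + k + 1 := by
  have h1 := cont_slot E σ (fun _ _ => (2 : ℂ)) b.1
  rw [cont_split, card_fib] at h1
  have h2 : ∀ t, slot E σ (Sum.inl 0, t) = b.1 := by
    intro t
    simp only [slot]
    rw [hE]
    rfl
  simp only [h2, if_true, Finset.prod_const, Finset.card_univ, Fintype.card_fin] at h1
  have h3 : (2 : ℕ) ^ (a + (univ.filter (fun pos : (Fin k ⊕ (Fin a × Fin (q + 1))) × Fin a =>
      slot E σ (jp pos.1, pos.2) = b.1)).card) = 2 ^ (k + 1 + a * (q + 1)) := by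
    rw [pow_add, pow_add, pow_mul]
    exact_mod_cast h1
  have h4 := Nat.pow_right_injective le_rfl h3
  have h5 : a * (q + 1) = q * a + a := by ring
  omega

end Slots

section Vanish

variable {κ : Type} [Fintype κ] [DecidableEq κ] {a M : ℕ}

lemma vanish (F : MultilinearMap ℂ (fun _ : Fin a => MvPolynomial (Fin a) ℂ) ℂ) (s : κ → Fin a)
    (g : Fin a → MvPolynomial (Fin a) ℂ) (p₀ : Fin a)
    (hc : (univ.filter (fun pos => s pos = p₀)).card < M) (ι : Fin M × Fin a ↪ κ)
    (w : κ → Fin a) :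
    colSum ι (fun w => F (fun p => g p * cont s (fun pos => X (w pos)) p)) w = 0 := by
  have h1 : ∃ c, ¬ Function.Injective fun i => s (ι (c, i)) := by
    by_contra hcon
    push Not at hcon
    have h2 : ∀ c, ∃ i, s (ι (c, i)) = p₀ := fun c =>
      (Finite.injective_iff_surjective.1 (hcon c)) p₀
    choose i hi using h2
    have h3 : M ≤ (univ.filter (fun pos => s pos = p₀)).card := by
      rw [← Finset.card_fin M, ← Finset.card_image_of_injective univ
        (f := fun c : Fin M => ι (c, i c))]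
      · refine Finset.card_le_card ?_
        intro x hx
        obtain ⟨c, -, rfl⟩ := Finset.mem_image.1 hx
        exact Finset.mem_filter.2 ⟨Finset.mem_univ _, hi c⟩
      · intro c c' h
        exact congrArg Prod.fst (ι.injective h)
    omega
  obtain ⟨c, hc'⟩ := h1
  rw [Function.not_injective_iff] at hc'
  obtain ⟨i, j, hij, hne⟩ := hc'
  apply sign_sum_zero' (fun τ => F (fun p => g p *
    cont s (fun pos => X (w (colPerm ι τ pos))) p)) c i j hne
  intro τ
  let τ' : Fin M → Equiv.Perm (Fin a) := Function.update (fun _ => 1) c (Equiv.swap i j)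
  have hτ : Function.update τ c (τ c * Equiv.swap i j) = fun c' => τ c' * τ' c' := by
    funext c'
    by_cases h : c' = c
    · subst h
      simp [τ']
    · simp [τ', h]
  have hs : ∀ pos, s (colPerm ι τ' pos) = s pos := by
    intro pos
    rcases colPerm_cases ι pos with ⟨c', i', rfl⟩ | h
    · rw [colPerm_apply]
      by_cases h : c' = c
      · subst h
        simp only [τ', Function.update_self]
        by_cases h1 : i' = i
        · subst h1
          rw [Equiv.swap_apply_left]
          exact hij.symm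
        · by_cases h2 : i' = j
          · subst h2
            rw [Equiv.swap_apply_right]
            exact hij
          · rw [Equiv.swap_apply_of_ne_of_ne h1 h2]
      · simp [τ', h]
    · rw [colPerm_notMem ι τ' pos h]
  change F _ = F _
  congr 1
  funext p
  congr 1
  rw [hτ, cont, cont, ← Equiv.prod_comp (colPerm ι τ')
    (fun pos => if s pos = p then (X (w (colPerm ι τ pos)) : MvPolynomial (Fin a) ℂ) else 1)]
  apply Finset.prod_congr rfl
  intro pos _
  rw [hs, colPerm_mul]

end Vanish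

/-- **(S5)** -/
theorem s5 : S5 := by
  intro a k q M F hF l hl hM ι w
  let Y : ((Fin k ⊕ (Fin a × Fin (q + 1))) × Fin a → Fin a) →
      (Fin (k + 1) ⊕ (Fin a × Fin (q + 1))) × Fin a → MvPolynomial (Fin a) ℂ := fun w pos =>
    ((pl k (Fin a × Fin (q + 1))) pos.1).elim l (fun r => X (w (r, pos.2)))
  have hY : ∀ w pos, Y w pos ∈ linS a := by
    intro w pos
    simp only [Y]
    rcases (pl k (Fin a × Fin (q + 1))) pos.1 with _ | r
    · exact hl
    · exact Submodule.subset_span ⟨_, rfl⟩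
  have hYj : ∀ w r t, Y w (jp r, t) = X (w (r, t)) := by
    intro w r t
    simp only [Y, jp, Equiv.apply_symm_apply]
    rfl
  let H : ((Fin (k + 1) ⊕ (Fin a × Fin (q + 1))) × Fin a → Fin a) →
      (((Fin k ⊕ (Fin a × Fin (q + 1))) × Fin a → Fin a) → ℂ) := fun s w => F (cont s (Y w))
  have h0 : ∀ w, ∑ E : Equiv.Perm (Fin (k + 1) ⊕ (Fin a × Fin (q + 1))),
      ∑ σ : Fin (k + 1) → Equiv.Perm (Fin a), H (slot E σ) w = 0 := by
    intro w
    rw [← hF (fun r t => Y w (r, t)) (fun r t => hY w _)]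
    apply Finset.sum_congr rfl
    intro E _
    apply Finset.sum_congr rfl
    intro σ _
    simp only [H]
    congr 1
    funext p
    exact cont_slot E σ (fun r t => Y w (r, t)) p
  have h1 : ∑ E : Equiv.Perm (Fin (k + 1) ⊕ (Fin a × Fin (q + 1))),
      ∑ σ : Fin (k + 1) → Equiv.Perm (Fin a), colSum ι (H (slot E σ)) w = 0 := by
    have h2 : colSum ι (fun w => ∑ E : Equiv.Perm (Fin (k + 1) ⊕ (Fin a × Fin (q + 1))),
        (fun w => ∑ σ : Fin (k + 1) → Equiv.Perm (Fin a), H (slot E σ) w) w) w = 0 := by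
      have h3 : (fun w => ∑ E : Equiv.Perm (Fin (k + 1) ⊕ (Fin a × Fin (q + 1))),
        (fun w => ∑ σ : Fin (k + 1) → Equiv.Perm (Fin a), H (slot E σ) w) w) = fun _ => 0 :=
        funext h0
      rw [h3]
      simp [colSum]
    rw [colSum_sum] at h2
    rw [← h2]
    apply Finset.sum_congr rfl
    intro E _
    rw [colSum_sum univ ι (fun σ => H (slot E σ)) w]
  rw [sum_split, Fintype.sum_option, Fintype.sum_sum_type] at h1
  -- the particle is a block
  have hA : ∀ (b : Fin a × Fin (q + 1)) (e : Equiv.Perm (Fin k ⊕ (Fin a × Fin (q + 1))))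
      (σ : Fin (k + 1) → Equiv.Perm (Fin a)),
      colSum ι (H (slot (ext e * Equiv.swap (Sum.inl 0)
        ((pl k (Fin a × Fin (q + 1))).symm (some (Sum.inr b)))) σ)) w = 0 := by
    intro b e σ
    set E := ext e * Equiv.swap (Sum.inl 0)
        ((pl k (Fin a × Fin (q + 1))).symm (some (Sum.inr b))) with hEdef
    have hE : E.symm (Sum.inl 0) = Sum.inr b := by
      change Equiv.swap (Sum.inl 0) (Sum.inr b) ((ext e).symm (Sum.inl 0)) = Sum.inr b
      have h2 : (ext e).symm (Sum.inl 0) = Sum.inl 0 := rfl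
      rw [h2, Equiv.swap_apply_left]
    have h2 : H (slot E σ) = fun w => F (fun p =>
        (∏ t : Fin a, if slot E σ (Sum.inl 0, t) = p then l else 1) *
          cont (fun pos : (Fin k ⊕ (Fin a × Fin (q + 1))) × Fin a => slot E σ (jp pos.1, pos.2))
            (fun pos => X (w pos)) p) := by
      funext w
      simp only [H]
      congr 1
      funext p
      rw [cont_split]
      congr 1
      congr 1
      funext pos
      exact hYj w pos.1 pos.2
    rw [h2]
    refine vanish F _ _ b.1 ?_ ι w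
    rw [card_lt E σ b hE]
    omega
  -- the particle is a column
  have hC : ∀ (e : Equiv.Perm (Fin k ⊕ (Fin a × Fin (q + 1))))
      (σ : Fin (k + 1) → Equiv.Perm (Fin a)),
      H (slot (ext e) σ) = wv (slot e (fun i => σ i.succ)) (mulL l F) := by
    intro e σ
    funext w
    rw [wv, mulL_apply]
    simp only [H]
    congr 1
    funext p
    rw [cont_split]
    have h2 : (∏ t : Fin a, if slot (ext e) σ (Sum.inl 0, t) = p then Y w (Sum.inl 0, t) else 1) =
        l := by
      rw [Finset.prod_eq_single (σ 0 p)]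
      · rw [slot_ext_zero, Equiv.symm_apply_apply, if_pos rfl]
        rfl
      · intro t _ ht
        rw [slot_ext_zero, if_neg]
        intro h
        exact ht (by rw [← h, Equiv.apply_symm_apply])
      · intro h
        exact absurd (Finset.mem_univ _) h
    rw [h2]
    congr 1
    have h3 : (fun pos : (Fin k ⊕ (Fin a × Fin (q + 1))) × Fin a =>
        slot (ext e) σ (jp pos.1, pos.2)) = slot e (fun i => σ i.succ) := by
      funext pos
      exact slot_ext e σ pos.1 pos.2
    have h4 : (fun pos : (Fin k ⊕ (Fin a × Fin (q + 1))) × Fin a => Y w (jp pos.1, pos.2)) =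
        fun pos => X (w pos) := by
      funext pos
      exact hYj w pos.1 pos.2
    rw [h3, h4]
  let T : ℂ := ∑ e : Equiv.Perm (Fin k ⊕ (Fin a × Fin (q + 1))),
    ∑ σ : Fin k → Equiv.Perm (Fin a), colSum ι (wv (slot e σ) (mulL l F)) w
  have hD : ∀ (i : Fin (k + 1)), ∑ e : Equiv.Perm (Fin k ⊕ (Fin a × Fin (q + 1))),
      ∑ σ : Fin (k + 1) → Equiv.Perm (Fin a),
        colSum ι (H (slot (ext e * Equiv.swap (Sum.inl 0) (Sum.inl i)) σ)) w =
      (Fintype.card (Equiv.Perm (Fin a)) : ℂ) * T := by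
    intro i
    simp only [T]
    rw [Finset.mul_sum]
    apply Finset.sum_congr rfl
    intro e _
    rw [sum_slot_swap (ext e) 0 i (fun s => colSum ι (H s) w)]
    simp only [hC]
    rw [← (Fin.consEquiv (fun _ : Fin (k + 1) => Equiv.Perm (Fin a))).sum_comp,
      Fintype.sum_prod_type]
    have h2 : ∀ ρ : Equiv.Perm (Fin a), ∑ σ : Fin k → Equiv.Perm (Fin a),
        colSum ι (wv (slot e (fun i => (Fin.consEquiv
          (fun _ : Fin (k + 1) => Equiv.Perm (Fin a))) (ρ, σ) i.succ)) (mulL l F)) w =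
        ∑ σ : Fin k → Equiv.Perm (Fin a), colSum ι (wv (slot e σ) (mulL l F)) w :=
      fun ρ => rfl
    rw [Finset.sum_congr rfl (fun ρ _ => h2 ρ), Finset.sum_const, Finset.card_univ, nsmul_eq_mul]
  have h2 : ∑ b : Fin a × Fin (q + 1), ∑ e : Equiv.Perm (Fin k ⊕ (Fin a × Fin (q + 1))),
      ∑ σ : Fin (k + 1) → Equiv.Perm (Fin a),
      colSum ι (H (slot (ext e * Equiv.swap (Sum.inl 0)
        ((pl k (Fin a × Fin (q + 1))).symm (some (Sum.inr b)))) σ)) w = 0 :=
    Finset.sum_eq_zero fun b _ => Finset.sum_eq_zero fun e _ =>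
      Finset.sum_eq_zero fun σ _ => hA b e σ
  rw [h2, add_zero] at h1
  have h3 := hD 0
  have h4 : ∑ i : Fin k, ∑ e : Equiv.Perm (Fin k ⊕ (Fin a × Fin (q + 1))),
      ∑ σ : Fin (k + 1) → Equiv.Perm (Fin a),
        colSum ι (H (slot (ext e * Equiv.swap (Sum.inl 0)
          ((pl k (Fin a × Fin (q + 1))).symm (some (Sum.inl i)))) σ)) w =
      (k : ℂ) * ((Fintype.card (Equiv.Perm (Fin a)) : ℂ) * T) := by
    rw [Finset.sum_congr rfl (fun i _ => hD i.succ), Finset.sum_const, Finset.card_univ,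
      Fintype.card_fin, nsmul_eq_mul]
  have h5 : (Fintype.card (Equiv.Perm (Fin a)) : ℂ) * T +
      (k : ℂ) * ((Fintype.card (Equiv.Perm (Fin a)) : ℂ) * T) = 0 := by
    rw [← h4, ← h3]
    exact h1
  have h6 : T = 0 := by
    have h7 : ((k : ℂ) + 1) * (Fintype.card (Equiv.Perm (Fin a)) : ℂ) * T = 0 := by
      rw [← h5]
      ring
    have h8 : ((k : ℂ) + 1) ≠ 0 := by exact_mod_cast Nat.succ_ne_zero k
    have h9 : (Fintype.card (Equiv.Perm (Fin a)) : ℂ) ≠ 0 := by
      exact_mod_cast Fintype.card_ne_zero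
    exact (mul_eq_zero.1 h7).resolve_left (mul_ne_zero h8 h9)
  have h7 := colSum_sum univ ι (fun (e : Equiv.Perm (Fin k ⊕ (Fin a × Fin (q + 1)))) w =>
    ∑ σ : Fin k → Equiv.Perm (Fin a), wv (slot e σ) (mulL l F) w) w
  refine h7.trans ?_
  rw [← h6]
  apply Finset.sum_congr rfl
  intro e _
  exact colSum_sum univ ι (fun σ => wv (slot e σ) (mulL l F)) w

end Vale.Agent.P181.H869
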