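import Vale.Agent.P181.H270.Master

set_option autoImplicit false
set_option linter.unusedSectionVars false

/-!
# P181, `b = a + 1`: the relation with one column through every particle but two

Particles: `inl 0` (letters `1, za`), `inr (0, 0)` (letters `1, zb`), `inr (c + 1, 0)` (letters
`1, 1, z c`). Two columns: the first through all the blocks, the second through `inl 0` and the
blocks `inr (c + 1, 0)`.
-/

namespace Vale.Agent.P181.H869

open Vale.Agent.P181 Vale.Agent.P181.H280 Vale.Agent.P181.H270 Finset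

variable {A : Type*} [CommRing A] [Algebra ℂ A]

/-- The particles. -/
abbrev Pt (a : ℕ) : Type := Fin 1 ⊕ (Fin a × Fin 1)

/-- The permutation of the particles which permutes the slots. -/
def lft {a : ℕ} (τ : Equiv.Perm (Fin a)) : Equiv.Perm (Pt a) :=
  Equiv.sumCongr (Equiv.refl _) (Equiv.prodCongr τ (Equiv.refl _))

lemma lft_inl {a : ℕ} (τ : Equiv.Perm (Fin a)) (i : Fin 1) : lft τ (.inl i) = .inl i := rfl

lemma lft_inr {a : ℕ} (τ : Equiv.Perm (Fin a)) (p : Fin a) (j : Fin 1) :
    lft τ (.inr (p, j)) = .inr (τ p, j) := rfl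

/-- Reduction of the sum over all placements. -/
lemma sum_reduce {a : ℕ} (f : Equiv.Perm (Pt a) → (Fin 1 → Equiv.Perm (Fin a)) → ℂ)
    (h : ∀ e σ τ, f (e * lft τ) (fun i => σ i * τ) = f e σ) (h0 : ∑ e, ∑ σ, f e σ = 0) :
    ∑ K : Pt a, ∑ ς : Equiv.Perm (Fin a), f (Equiv.swap (.inl 0) K) (fun _ => ς) = 0 := by
  classical
  let Φ : Pt a × Equiv.Perm (Fin a) → Equiv.Perm (Pt a) := fun x =>
    Equiv.swap (.inl 0) x.1 * lft x.2
  have hΦ : Function.Bijective Φ := by
    rw [Fintype.bijective_iff_injective_and_card]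
    constructor
    · rintro ⟨K, τ⟩ ⟨K', τ'⟩ hx
      have h1 : Equiv.swap (.inl 0) K * lft τ = Equiv.swap (.inl 0) K' * lft τ' := hx
      have h2 : K = K' := by
        have := congrArg (fun g : Equiv.Perm (Pt a) => g (.inl 0)) h1
        simpa only [Equiv.Perm.mul_apply, lft_inl, Equiv.swap_apply_left] using this
      subst h2
      have h3 : lft τ = lft τ' := mul_left_cancel h1
      have h4 : τ = τ' := by
        ext p
        have := congrArg (fun g : Equiv.Perm (Pt a) => g (.inr (p, 0))) h3
        simp only [lft_inr] at this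
        have h5 := congrArg Prod.fst (Sum.inr_injective this)
        exact congrArg Fin.val h5
      rw [h4]
    · rw [Fintype.card_prod, Fintype.card_perm, Fintype.card_perm, Fintype.card_sum,
        Fintype.card_prod, Fintype.card_fin, Fintype.card_fin, mul_one, add_comm 1 a,
        Nat.factorial_succ]
  have h1 : ∀ (E : Equiv.Perm (Pt a)) (τ : Equiv.Perm (Fin a)),
      ∑ σ, f (E * lft τ) σ = ∑ ς : Equiv.Perm (Fin a), f E (fun _ => ς) := by
    intro E τ
    have h2 : ∑ σ : Fin 1 → Equiv.Perm (Fin a), f (E * lft τ) σ =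
        ∑ σ : Fin 1 → Equiv.Perm (Fin a), f (E * lft τ) (fun i => σ i * τ) :=
      (Equiv.sum_comp (Equiv.piCongrRight fun _ : Fin 1 => Equiv.mulRight τ)
        (fun σ => f (E * lft τ) σ)).symm
    rw [h2]
    simp_rw [h]
    exact (Equiv.sum_comp (Equiv.funUnique (Fin 1) (Equiv.Perm (Fin a))).symm
      (fun σ => f E σ)).symm
  have h2 : ∑ e, ∑ σ, f e σ = ∑ x : Pt a × Equiv.Perm (Fin a), ∑ σ, f (Φ x) σ :=
    (Function.Bijective.sum_comp hΦ (fun e => ∑ σ, f e σ)).symm
  rw [h2, Fintype.sum_prod_type] at h0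
  have h3 : ∀ (K : Pt a) (τ : Equiv.Perm (Fin a)), ∑ σ, f (Φ (K, τ)) σ =
      ∑ ς : Equiv.Perm (Fin a), f (Equiv.swap (.inl 0) K) (fun _ => ς) := fun K τ => h1 _ τ
  simp_rw [h3] at h0
  simp only [Finset.sum_const, Finset.card_univ, Fintype.card_perm, Fintype.card_fin,
    nsmul_eq_mul] at h0
  rw [← Finset.mul_sum] at h0
  exact (mul_eq_zero.1 h0).resolve_left (Nat.cast_ne_zero.2 (Nat.factorial_ne_zero a))

section Term

variable {a : ℕ} (P : Fin 2 → Fin a → Pt a × Fin a)
  (φ : MultilinearMap ℂ (fun _ : Fin a => A) ℂ) (B : Pt a × Fin a → A)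

open Classical in
/-- The term of a placement. -/
noncomputable def term (s : Pt a × Fin a → Fin a) : ℂ :=
  if h : ∀ c, Function.Bijective (fun i => s (P c i)) then
    (∏ c, ((Equiv.Perm.sign (Equiv.ofBijective _ (h c)) : ℤ) : ℂ)) * φ (cont s B) else 0

lemma term_zero {s : Pt a × Fin a → Fin a} {c : Fin 2} {i j : Fin a} (hij : i ≠ j)
    (h : s (P c i) = s (P c j)) : term P φ B s = 0 := by
  unfold term
  rw [dif_neg]
  intro hb
  exact hij ((hb c).1 h)

lemma term_val {s : Pt a × Fin a → Fin a} (ρ : Fin 2 → Equiv.Perm (Fin a))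
    (h : ∀ c i, s (P c i) = ρ c i) : term P φ B s =
      ((Equiv.Perm.sign (ρ 0) : ℤ) : ℂ) * ((Equiv.Perm.sign (ρ 1) : ℤ) : ℂ) * φ (cont s B) := by
  have hb : ∀ c, Function.Bijective (fun i => s (P c i)) := by
    intro c
    have : (fun i => s (P c i)) = ρ c := funext (h c)
    rw [this]
    exact (ρ c).bijective
  have h1 : ∀ c, Equiv.ofBijective _ (hb c) = ρ c := fun c => Equiv.ext fun i => h c i
  unfold term
  rw [dif_pos hb, Fin.prod_univ_two, h1, h1]

lemma term_symm (hφ : IsSymm φ) (s : Pt a × Fin a → Fin a) (τ : Equiv.Perm (Fin a)) :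
    term P φ B (fun pos => τ.symm (s pos)) = term P φ B s := by
  by_cases h : ∀ c, Function.Bijective (fun i => s (P c i))
  · rw [term_val P φ B (s := s) (fun c => Equiv.ofBijective _ (h c)) (fun c i => rfl),
      term_val P φ B (s := fun pos => τ.symm (s pos))
        (fun c => (Equiv.ofBijective _ (h c)).trans τ.symm) (fun c i => rfl)]
    have h1 : φ (cont (fun pos => τ.symm (s pos)) B) = φ (cont s B) := by
      rw [← hφ τ (cont s B)]
      congr 1
      funext p
      simp only [cont]
      apply Finset.prod_congr rfl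
      intro pos _
      simp only [Equiv.symm_apply_eq]
    rw [h1, Equiv.Perm.sign_trans, Equiv.Perm.sign_trans]
    have h2 : ((Equiv.Perm.sign τ.symm : ℤ) : ℂ) * ((Equiv.Perm.sign τ.symm : ℤ) : ℂ) = 1 := by
      rw [← Int.cast_mul, ← Units.val_mul, Int.units_mul_self, Units.val_one, Int.cast_one]
    push_cast
    linear_combination (((Equiv.Perm.sign (Equiv.ofBijective _ (h 0)) : ℤ) : ℂ) *
      ((Equiv.Perm.sign (Equiv.ofBijective _ (h 1)) : ℤ) : ℂ) * φ (cont s B)) * h2
  · unfold term
    rw [dif_neg h, dif_neg]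
    intro h'
    apply h
    intro c
    have h1 := τ.bijective.comp (h' c)
    have h2 : (τ ∘ fun i => τ.symm (s (P c i))) = fun i => s (P c i) := by
      funext i
      simp
    rwa [h2] at h1

end Term

lemma slot_lft {a : ℕ} (e : Equiv.Perm (Pt a)) (σ : Fin 1 → Equiv.Perm (Fin a))
    (τ : Equiv.Perm (Fin a)) : slot (k := 1) (q := 1) (e * lft τ) (fun i => σ i * τ) =
      fun pos => τ.symm (slot e σ pos) := by
  funext pos
  obtain ⟨r, l⟩ := pos
  obtain ⟨r', rfl⟩ := e.surjective r
  rcases r' with i | ⟨p, j⟩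
  · have h1 : e (.inl i) = (e * lft τ) (.inl i) := rfl
    rw [slot_e_inl]
    rw [h1, slot_e_inl]
    rfl
  · have h1 : e (.inr (p, j)) = (e * lft τ) (.inr (τ.symm p, j)) := by
      rw [Equiv.Perm.mul_apply, lft_inr, Equiv.apply_symm_apply]
    rw [slot_e_inr]
    rw [h1, slot_e_inr]

section Star

variable {m : ℕ}

/-- The columns. -/
def colP (m : ℕ) : Fin 2 → Fin (m + 2) → Pt (m + 2) × Fin (m + 2) :=
  ![fun i => (.inr (i, 0), 0),
    Fin.cases (.inl 0, 0) (fun c : Fin (m + 1) => (.inr (c.succ, 0), 1))]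

lemma colP_0 (i : Fin (m + 2)) : colP m 0 i = (.inr (i, 0), 0) := rfl

lemma colP_1_0 : colP m 1 0 = (.inl 0, 0) := rfl

lemma colP_1_succ (c : Fin (m + 1)) : colP m 1 c.succ = (.inr (c.succ, 0), 1) := rfl

/-- The letters of the particles. -/
def let' (za zb : Fin (m + 1) → A) (z : Fin (m + 1) → Fin m → A) :
    Pt (m + 2) → Fin (m + 2) → A :=
  Sum.elim (fun _ => (Fin.cons (1 : A) za : Fin (m + 2) → A))
    (fun pj => Fin.cases (Fin.cons (1 : A) zb : Fin (m + 2) → A)
      (fun c => (Fin.cons (1 : A) (Fin.cons (1 : A) (z c) : Fin (m + 1) → A) : Fin (m + 2) → A))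
      pj.1)

variable (za zb : Fin (m + 1) → A) (z : Fin (m + 1) → Fin m → A)

lemma let_inl (i : Fin 1) : let' za zb z (.inl i) = Fin.cons (1 : A) za := rfl

lemma let_zero (j : Fin 1) : let' za zb z (.inr (0, j)) = Fin.cons (1 : A) zb := rfl

lemma let_succ (c : Fin (m + 1)) (j : Fin 1) : let' za zb z (.inr (c.succ, j)) =
    (Fin.cons (1 : A) (Fin.cons (1 : A) (z c) : Fin (m + 1) → A) : Fin (m + 2) → A) := rfl

lemma prod_inl (i : Fin 1) : ∏ s, let' za zb z (.inl i) s = ∏ i, za i := by
  rw [let_inl, Fin.prod_univ_succ, Fin.cons_zero, one_mul]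
  simp only [Fin.cons_succ]

lemma prod_zero (j : Fin 1) : ∏ s, let' za zb z (.inr (0, j)) s = ∏ i, zb i := by
  rw [let_zero, Fin.prod_univ_succ, Fin.cons_zero, one_mul]
  simp only [Fin.cons_succ]

lemma prod_succ (c : Fin (m + 1)) (j : Fin 1) :
    ∏ s, let' za zb z (.inr (c.succ, j)) s = ∏ i, z c i := by
  rw [let_succ, Fin.prod_univ_succ, Fin.cons_zero, one_mul]
  simp only [Fin.cons_succ]
  rw [Fin.prod_univ_succ, Fin.cons_zero, one_mul]
  simp only [Fin.cons_succ]

lemma cont_eq (e : Equiv.Perm (Pt (m + 2))) (ς : Equiv.Perm (Fin (m + 2))) (p : Fin (m + 2)) :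
    cont (slot (k := 1) (q := 1) e (fun _ => ς)) (fun pos => let' za zb z pos.1 pos.2) p =
      let' za zb z (e (.inl 0)) (ς p) * ∏ s, let' za zb z (e (.inr (p, 0))) s := by
  rw [cont_slot]
  simp only [Finset.univ_unique, Fin.default_eq_zero, Finset.prod_singleton]

lemma slot_swap_inl (K : Pt (m + 2)) (ς : Equiv.Perm (Fin (m + 2))) (l : Fin (m + 2)) :
    slot (k := 1) (q := 1) (Equiv.swap (.inl 0) K) (fun _ => ς) (K, l) = ς.symm l := by
  have h := slot_e_inl (k := 1) (q := 1) (Equiv.swap (.inl 0) K) (fun _ => ς) 0 l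
  rwa [Equiv.swap_apply_left] at h

lemma slot_swap_self (p : Fin (m + 2)) (ς : Equiv.Perm (Fin (m + 2))) (l : Fin (m + 2)) :
    slot (k := 1) (q := 1) (Equiv.swap (.inl 0) (.inr (p, 0))) (fun _ => ς) (.inl 0, l) = p := by
  have h := slot_e_inr (k := 1) (q := 1) (Equiv.swap (.inl 0) (.inr (p, 0))) (fun _ => ς) (p, 0) l
  rwa [Equiv.swap_apply_right] at h

lemma slot_swap_other {p i : Fin (m + 2)} (hi : i ≠ p) (ς : Equiv.Perm (Fin (m + 2)))
    (l : Fin (m + 2)) :
    slot (k := 1) (q := 1) (Equiv.swap (.inl 0) (.inr (p, 0))) (fun _ => ς) (.inr (i, 0), l) =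
      i := by
  have h := slot_e_inr (k := 1) (q := 1) (Equiv.swap (.inl 0) (.inr (p, 0))) (fun _ => ς) (i, 0) l
  rwa [Equiv.swap_apply_of_ne_of_ne (by simp) (fun h => hi (congrArg Prod.fst
    (Sum.inr_injective h)))] at h

lemma slot_id (i : Fin (m + 2)) (ς : Equiv.Perm (Fin (m + 2))) (l : Fin (m + 2)) :
    slot (k := 1) (q := 1) (Equiv.swap (.inl 0) (.inl 0)) (fun _ => ς) (.inr (i, 0), l) = i := by
  have h := slot_e_inr (k := 1) (q := 1) (Equiv.swap (.inl 0) (.inl 0)) (fun _ => ς) (i, 0) l
  rwa [Equiv.swap_self] at h ⊢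

variable (φ : MultilinearMap ℂ (fun _ : Fin (m + 2) => A) ℂ)

/-- `inl 0` is dissolved. -/
lemma term_D : ∑ ς : Equiv.Perm (Fin (m + 2)), term (colP m) φ
      (fun pos => let' za zb z pos.1 pos.2)
      (slot (k := 1) (q := 1) (Equiv.swap (.inl 0) (.inl 0)) (fun _ => ς)) =
    ∑ s : Equiv.Perm (Fin (m + 1)),
      φ (Fin.cons (∏ i, zb i) (fun c => za (s c) * ∏ i, z c i)) := by
  rw [← Equiv.sum_comp Equiv.Perm.decomposeFin.symm, Fintype.sum_prod_type,
    Finset.sum_eq_single 0]
  · apply Finset.sum_congr rfl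
    intro s _
    rw [term_val _ _ _ (fun _ => 1)]
    · simp only [Equiv.Perm.sign_one, Units.val_one, Int.cast_one, one_mul]
      congr 1
      funext p
      rw [cont_eq, Equiv.swap_self]
      refine Fin.cases ?_ (fun c => ?_) p
      · rw [Equiv.refl_apply, Equiv.refl_apply, prod_zero, let_inl,
          Equiv.Perm.decomposeFin_symm_apply_zero, Fin.cons_zero, Fin.cons_zero, one_mul]
      · rw [Equiv.refl_apply, Equiv.refl_apply, prod_succ, let_inl,
          Equiv.Perm.decomposeFin_symm_apply_succ, Equiv.swap_self, Equiv.refl_apply,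
          Fin.cons_succ, Fin.cons_succ]
    · intro c i
      rw [Equiv.Perm.one_apply]
      fin_cases c
      · exact slot_id _ _ _
      · refine Fin.cases ?_ (fun c => ?_) i
        · show slot (k := 1) (q := 1) (Equiv.swap (.inl 0) (.inl 0)) _ (.inl 0, 0) = 0
          rw [slot_swap_inl, Equiv.symm_apply_eq, Equiv.Perm.decomposeFin_symm_apply_zero]
        · exact slot_id _ _ _
  · intro p _ hp
    apply Finset.sum_eq_zero
    intro s _
    set ς := Equiv.Perm.decomposeFin.symm (p, s) with hς
    have h0 : ς.symm 0 ≠ 0 := by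
      intro h
      rw [Equiv.symm_apply_eq, hς, Equiv.Perm.decomposeFin_symm_apply_zero] at h
      exact hp h.symm
    obtain ⟨c, hc⟩ := Fin.exists_succ_eq.2 h0
    refine term_zero (colP m) φ _ (c := 1) (i := 0) (j := c.succ) (Fin.succ_ne_zero c).symm ?_
    rw [colP_1_0, colP_1_succ, slot_swap_inl, slot_id, hc]
  · intro h
    exact absurd (Finset.mem_univ _) h

/-- `inr (0, 0)` is dissolved. -/
lemma term_E : ∑ ς : Equiv.Perm (Fin (m + 2)), term (colP m) φ
      (fun pos => let' za zb z pos.1 pos.2)
      (slot (k := 1) (q := 1) (Equiv.swap (.inl 0) (.inr (0, 0))) (fun _ => ς)) =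
    ∑ s : Equiv.Perm (Fin (m + 1)),
      φ (Fin.cons (∏ i, za i) (fun c => zb (s c) * ∏ i, z c i)) := by
  rw [← Equiv.sum_comp Equiv.Perm.decomposeFin.symm, Fintype.sum_prod_type,
    Finset.sum_eq_single 0]
  · apply Finset.sum_congr rfl
    intro s _
    rw [term_val _ _ _ (fun _ => 1)]
    · simp only [Equiv.Perm.sign_one, Units.val_one, Int.cast_one, one_mul]
      congr 1
      funext p
      rw [cont_eq, Equiv.swap_apply_left]
      refine Fin.cases ?_ (fun c => ?_) p
      · rw [Equiv.swap_apply_right, prod_inl, let_zero,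
          Equiv.Perm.decomposeFin_symm_apply_zero, Fin.cons_zero, Fin.cons_zero, one_mul]
      · rw [Equiv.swap_apply_of_ne_of_ne (by simp) (by simp [Fin.succ_ne_zero]), prod_succ,
          let_zero, Equiv.Perm.decomposeFin_symm_apply_succ, Equiv.swap_self, Equiv.refl_apply,
          Fin.cons_succ, Fin.cons_succ]
    · intro c i
      rw [Equiv.Perm.one_apply]
      fin_cases c
      · refine Fin.cases ?_ (fun c => ?_) i
        · show slot (k := 1) (q := 1) (Equiv.swap (.inl 0) (.inr (0, 0))) _
            (.inr (0, 0), 0) = 0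
          rw [slot_swap_inl, Equiv.symm_apply_eq, Equiv.Perm.decomposeFin_symm_apply_zero]
        · exact slot_swap_other (Fin.succ_ne_zero c) _ _
      · refine Fin.cases ?_ (fun c => ?_) i
        · exact slot_swap_self _ _ _
        · exact slot_swap_other (Fin.succ_ne_zero c) _ _
  · intro p _ hp
    apply Finset.sum_eq_zero
    intro s _
    set ς := Equiv.Perm.decomposeFin.symm (p, s) with hς
    have h0 : ς.symm 0 ≠ 0 := by
      intro h
      rw [Equiv.symm_apply_eq, hς, Equiv.Perm.decomposeFin_symm_apply_zero] at h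
      exact hp h.symm
    refine term_zero (colP m) φ _ (c := 0) (i := 0) (j := ς.symm 0) h0.symm ?_
    rw [colP_0, colP_0, slot_swap_inl, slot_swap_other h0]
  · intro h
    exact absurd (Finset.mem_univ _) h

/-- `inr (c + 1, 0)` is dissolved. -/
lemma term_C (c : Fin (m + 1)) : ∑ ς : Equiv.Perm (Fin (m + 2)), term (colP m) φ
      (fun pos => let' za zb z pos.1 pos.2)
      (slot (k := 1) (q := 1) (Equiv.swap (.inl 0) (.inr (c.succ, 0))) (fun _ => ς)) =
    - ∑ s : Equiv.Perm (Fin m), φ (Fin.cons (∏ i, zb i) (c.insertNth (∏ i, za i)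
      (fun j => z c (s j) * ∏ i, z (c.succAbove j) i))) := by
  set π : Equiv.Perm (Fin (m + 2)) := c.succ.cycleRange with hπ
  have hπc : π c.succ = 0 := by rw [hπ]; exact Fin.cycleRange_self _
  have hπ0 : π 0 = 1 := by
    have h1 := Fin.cycleRange_succAbove c.succ 0
    rw [Fin.succ_succAbove_zero] at h1
    rw [hπ, h1]
    rfl
  have hπj : ∀ j : Fin m, π (c.succAbove j).succ = j.succ.succ := by
    intro j
    have h1 := Fin.cycleRange_succAbove c.succ j.succ
    rw [Fin.succ_succAbove_succ] at h1
    exact h1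
  rw [← Equiv.sum_comp (Equiv.mulRight π), ← Equiv.sum_comp Equiv.Perm.decomposeFin.symm,
    Fintype.sum_prod_type, Finset.sum_eq_single 0]
  · rw [← Equiv.sum_comp Equiv.Perm.decomposeFin.symm, Fintype.sum_prod_type,
      Finset.sum_eq_single 0, ← Finset.sum_neg_distrib]
    · apply Finset.sum_congr rfl
      intro s _
      simp only [Equiv.coe_mulRight]
      set ς := Equiv.Perm.decomposeFin.symm (0, Equiv.Perm.decomposeFin.symm (0, s)) * π with hς
      have h1 : ς c.succ = 0 := by
        rw [hς, Equiv.Perm.mul_apply, hπc, Equiv.Perm.decomposeFin_symm_apply_zero]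
      have h2 : ς 0 = 1 := by
        rw [hς, Equiv.Perm.mul_apply, hπ0, ← Fin.succ_zero_eq_one,
          Equiv.Perm.decomposeFin_symm_apply_succ, Equiv.Perm.decomposeFin_symm_apply_zero,
          Equiv.swap_self, Equiv.refl_apply]
      have h3 : ∀ j, ς (c.succAbove j).succ = (s j).succ.succ := by
        intro j
        rw [hς, Equiv.Perm.mul_apply, hπj, Equiv.Perm.decomposeFin_symm_apply_succ,
          Equiv.Perm.decomposeFin_symm_apply_succ, Equiv.swap_self, Equiv.swap_self,
          Equiv.refl_apply, Equiv.refl_apply]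
      rw [term_val _ _ _ ![1, Equiv.swap 0 c.succ]]
      · have h4 : Equiv.Perm.sign (Equiv.swap 0 c.succ) = -1 :=
          Equiv.Perm.sign_swap (Fin.succ_ne_zero c).symm
        simp only [Matrix.cons_val_zero, Matrix.cons_val_one, Equiv.Perm.sign_one, h4,
          Units.val_one, Int.cast_one, one_mul, Units.val_neg, Int.cast_neg, neg_mul]
        congr 2
        funext p
        rw [cont_eq, Equiv.swap_apply_left]
        refine Fin.cases ?_ (fun c' => ?_) p
        · rw [Equiv.swap_apply_of_ne_of_ne (by simp) (by simp [(Fin.succ_ne_zero c).symm]),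
            prod_zero, let_succ, h2, ← Fin.succ_zero_eq_one, Fin.cons_succ, Fin.cons_zero,
            Fin.cons_zero, one_mul]
        · rw [Fin.cons_succ]
          rcases Fin.eq_self_or_eq_succAbove c c' with h5 | ⟨j, h5⟩
          · subst h5
            rw [Equiv.swap_apply_right, prod_inl, let_succ, h1, Fin.cons_zero, one_mul,
              Fin.insertNth_apply_same]
          · subst h5
            rw [Equiv.swap_apply_of_ne_of_ne (by simp) (by
              intro h
              exact Fin.succAbove_ne c j (Fin.succ_injective _ (congrArg Prod.fst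
                (Sum.inr_injective h)))), prod_succ, let_succ, h3, Fin.cons_succ, Fin.cons_succ,
              Fin.insertNth_apply_succAbove]
      · intro c0 i
        fin_cases c0
        · show slot (k := 1) (q := 1) (Equiv.swap (.inl 0) (.inr (c.succ, 0))) _
            (.inr (i, 0), 0) = i
          by_cases hi : i = c.succ
          · subst hi
            rw [slot_swap_inl, Equiv.symm_apply_eq, h1]
          · exact slot_swap_other hi _ _
        · refine Fin.cases ?_ (fun c' => ?_) i
          · show slot (k := 1) (q := 1) (Equiv.swap (.inl 0) (.inr (c.succ, 0))) _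
              (.inl 0, 0) = Equiv.swap 0 c.succ 0
            rw [slot_swap_self, Equiv.swap_apply_left]
          · show slot (k := 1) (q := 1) (Equiv.swap (.inl 0) (.inr (c.succ, 0))) _
              (.inr (c'.succ, 0), 1) = Equiv.swap 0 c.succ c'.succ
            by_cases hc : c' = c
            · subst hc
              rw [slot_swap_inl, Equiv.symm_apply_eq, Equiv.swap_apply_right, h2]
            · rw [slot_swap_other (fun h => hc (Fin.succ_injective _ h)),
                Equiv.swap_apply_of_ne_of_ne (Fin.succ_ne_zero c')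
                (fun h => hc (Fin.succ_injective _ h))]
    · intro p _ hp
      apply Finset.sum_eq_zero
      intro s _
      simp only [Equiv.coe_mulRight]
      set ς := Equiv.Perm.decomposeFin.symm (0, Equiv.Perm.decomposeFin.symm (p, s)) * π with hς
      have h2 : ς 0 = p.succ := by
        rw [hς, Equiv.Perm.mul_apply, hπ0, ← Fin.succ_zero_eq_one,
          Equiv.Perm.decomposeFin_symm_apply_succ, Equiv.Perm.decomposeFin_symm_apply_zero,
          Equiv.swap_self, Equiv.refl_apply]
      have h3 : ς.symm 1 ≠ 0 := by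
        intro h
        rw [Equiv.symm_apply_eq, h2, ← Fin.succ_zero_eq_one] at h
        exact hp (Fin.succ_injective _ h).symm
      obtain ⟨c', hc'⟩ := Fin.exists_succ_eq.2 h3
      by_cases hc : c' = c
      · subst hc
        refine term_zero (colP m) φ _ (c := 1) (i := 0) (j := c'.succ)
          (Fin.succ_ne_zero c').symm ?_
        rw [colP_1_0, colP_1_succ, slot_swap_self, slot_swap_inl, hc']
      · refine term_zero (colP m) φ _ (c := 1) (i := c'.succ) (j := c.succ)
          (fun h => hc (Fin.succ_injective _ h)) ?_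
        rw [colP_1_succ, colP_1_succ, slot_swap_other (fun h => hc (Fin.succ_injective _ h)),
          slot_swap_inl, hc']
    · intro h
      exact absurd (Finset.mem_univ _) h
  · intro p _ hp
    apply Finset.sum_eq_zero
    intro s _
    simp only [Equiv.coe_mulRight]
    set ς := Equiv.Perm.decomposeFin.symm (p, s) * π with hς
    have h1 : ς c.succ = p := by
      rw [hς, Equiv.Perm.mul_apply, hπc, Equiv.Perm.decomposeFin_symm_apply_zero]
    have h0 : ς.symm 0 ≠ c.succ := by
      intro h
      rw [Equiv.symm_apply_eq, h1] at h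
      exact hp h.symm
    refine term_zero (colP m) φ _ (c := 0) (i := c.succ) (j := ς.symm 0) h0.symm ?_
    rw [colP_0, colP_0, slot_swap_inl, slot_swap_other h0]
  · intro h
    exact absurd (Finset.mem_univ _) h

end Star

/-- **(STAR)**: the relation with one column through `za` (resp. `zb`), `b = a + 1`. -/
theorem star {m : ℕ} (L : Submodule ℂ A) (F : MultilinearMap ℂ (fun _ : Fin (m + 2) => A) ℂ)
    (hs : IsSymm F) (hR : Rel 1 1 L F) (x : Fin (m + 2) → A) (hx : ∀ i, x i ∈ L)
    (za zb : Fin (m + 1) → A) (z : Fin (m + 1) → Fin m → A) (hza : ∀ i, za i ∈ L)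
    (hzb : ∀ i, zb i ∈ L) (hz : ∀ c i, z c i ∈ L) :
    (∑ s : Equiv.Perm (Fin (m + 1)), ((altC x)^[2] F)
        (Fin.cons (∏ i, zb i) (fun c => za (s c) * ∏ i, z c i))) +
      (∑ s : Equiv.Perm (Fin (m + 1)), ((altC x)^[2] F)
        (Fin.cons (∏ i, za i) (fun c => zb (s c) * ∏ i, z c i))) =
      ∑ c : Fin (m + 1), ∑ s : Equiv.Perm (Fin m), ((altC x)^[2] F) (Fin.cons (∏ i, zb i)
        (c.insertNth (∏ i, za i) (fun j => z c (s j) * ∏ i, z (c.succAbove j) i))) := by
  classical
  have hφ : IsSymm ((altC x)^[2] F) :=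
    (((IsSymm.isSgn hs).altC x).altC x).isSymm
  have hP : ∀ c i c' i', colP m c i = colP m c' i' → c = c' ∧ i = i' := by
    intro c i c' i' h
    fin_cases c <;> fin_cases c'
    · exact ⟨rfl, congrArg Prod.fst (Sum.inr_injective (congrArg Prod.fst h))⟩
    · exfalso
      revert h
      refine Fin.cases ?_ (fun c' => ?_) i'
      · intro h
        exact absurd (congrArg Prod.fst h) (by simp [colP])
      · intro h
        have := congrArg Prod.snd h
        exact absurd this (by simp [colP])
    · exfalso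
      revert h
      refine Fin.cases ?_ (fun c' => ?_) i
      · intro h
        exact absurd (congrArg Prod.fst h) (by simp [colP])
      · intro h
        have := congrArg Prod.snd h
        exact absurd this (by simp [colP])
    · refine ⟨rfl, ?_⟩
      revert h
      refine Fin.cases ?_ (fun c => ?_) i <;> refine Fin.cases ?_ (fun c' => ?_) i'
      · intro _; rfl
      · intro h
        exact absurd (congrArg Prod.fst h) (by simp [colP])
      · intro h
        exact absurd (congrArg Prod.fst h) (by simp [colP])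
      · intro h
        exact congrArg Prod.fst (Sum.inr_injective (congrArg Prod.fst h))
  have hm := master (k := 1) (q := 1) (N := 2) L F hR x hx (colP m) hP
    (fun pos => let' za zb z pos.1 pos.2) ?_ ?_
  · have h1 := sum_reduce (a := m + 2) (fun e σ => term (colP m) ((altC x)^[2] F)
      (fun pos => let' za zb z pos.1 pos.2) (slot (k := 1) (q := 1) e σ)) ?_ ?_
    · rw [Fintype.sum_sum_type, Fintype.sum_prod_type] at h1
      simp only [Finset.univ_unique, Fin.default_eq_zero, Finset.sum_singleton] at h1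
      rw [Fin.sum_univ_succ, term_D, term_E] at h1
      simp_rw [term_C, Finset.sum_neg_distrib] at h1
      linear_combination h1
    · intro e σ τ
      show term (colP m) ((altC x)^[2] F) _ (slot (k := 1) (q := 1) (e * lft τ)
        (fun i => σ i * τ)) = _
      rw [slot_lft]
      exact term_symm _ _ _ hφ _ _
    · exact hm
  · intro c i
    fin_cases c
    · show let' za zb z (.inr (i, 0)) 0 = 1
      refine Fin.cases ?_ (fun c => ?_) i
      · rfl
      · rfl
    · refine Fin.cases ?_ (fun c => ?_) i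
      · rfl
      · rfl
  · rintro ⟨r, l⟩ hr
    rcases r with i | ⟨p, j⟩
    · obtain rfl : i = 0 := Subsingleton.elim _ _
      revert hr
      refine Fin.cases ?_ (fun l => ?_) l
      · intro hr
        exact absurd rfl (hr 1 0)
      · intro _
        exact hza l
    · obtain rfl : j = 0 := Subsingleton.elim _ _
      revert hr
      refine Fin.cases ?_ (fun c => ?_) p
      · refine Fin.cases ?_ (fun l => ?_) l
        · intro hr
          exact absurd rfl (hr 0 0)
        · intro _
          exact hzb l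
      · refine Fin.cases ?_ (fun l => ?_) l
        · intro hr
          exact absurd rfl (hr 0 c.succ)
        · refine Fin.cases ?_ (fun l => ?_) l
          · intro hr
            exact absurd rfl (hr 1 c.succ)
          · intro _
            exact hz c l

end Vale.Agent.P181.H869
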